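import Vale.Agent.P065.Chains

/-!
The linear bound for edges and `k`-sets of sets covered by few sets in convex position.
-/

open Finset

namespace Vale.Agent.P065

/-- Reflection in the horizontal axis. -/
def mirror (p : ℝ × ℝ) : ℝ × ℝ := (p.1, -p.2)

lemma mirror_injective : Function.Injective mirror := fun p q h => by
  simpa [mirror, Prod.ext_iff] using h

lemma slope2_mirror (p q : ℝ × ℝ) : slope2 (mirror p) (mirror q) = -slope2 p q := by
  simp only [slope2, mirror]; rw [← neg_div]; congr 1; ring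

lemma lift_mirror (s : ℝ) (p : ℝ × ℝ) : lift s (mirror p) = -lift (-s) p := by
  simp [lift, mirror]; ring

variable {P : Finset (ℝ × ℝ)}

lemma Generic.mirror (hP : Generic P) : Generic (P.image mirror) where
  fst_ne := by
    simp only [mem_image, forall_exists_index, and_imp]
    rintro _ p hp rfl _ q hq rfl h
    exact hP.fst_ne p hp q hq fun h' => h (by rw [h'])
  slope_ne := by
    simp only [mem_image, forall_exists_index, and_imp]
    rintro _ p hp rfl _ q hq rfl _ r hr rfl h1 h2 h3
    rw [slope2_mirror, slope2_mirror, ne_eq, neg_inj]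
    exact hP.slope_ne p hp q hq r hr (fun h => h1 (by rw [h])) (fun h => h2 (by rw [h]))
      (fun h => h3 (by rw [h]))

/-- Every point of `S` is the only minimum of some linear function on `S`. -/
def Exposed (S : Set (ℝ × ℝ)) : Prop :=
  ∀ p ∈ S, ∃ u w : ℝ, ∀ r ∈ S, r ≠ p → 0 < u * (r.1 - p.1) + w * (r.2 - p.2)

/-- Points exposed from below. -/
def lowerPart (S : Set (ℝ × ℝ)) : Set (ℝ × ℝ) :=
  {p ∈ S | ∃ α : ℝ, ∀ r ∈ S, r ≠ p → α * (r.1 - p.1) < r.2 - p.2}

lemma isCup_lowerPart (S : Set (ℝ × ℝ)) : IsCup (lowerPart S) := by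
  rintro a ⟨ha, -⟩ b ⟨-, α, hα⟩ c ⟨hc, -⟩ hab hbc
  have h1 := hα a ha fun h => hab.ne (by rw [h])
  have h2 := hα c hc fun h => hbc.ne (by rw [h])
  have e1 : slope2 a b < α := by
    rw [slope2, div_lt_iff₀ (sub_pos.2 hab)]; linarith
  have e2 : α < slope2 b c := by
    rw [slope2, lt_div_iff₀ (sub_pos.2 hbc)]; linarith
  linarith

lemma isCup_mirror_upperPart {S : Set (ℝ × ℝ)} (hS : Exposed S) :
    IsCup (mirror '' (S \ lowerPart S)) := by
  rintro _ ⟨a, ⟨ha, -⟩, rfl⟩ _ ⟨b, ⟨hb, hb'⟩, rfl⟩ _ ⟨c, ⟨hc, -⟩, rfl⟩ hab hbc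
  replace hab : a.1 < b.1 := hab
  replace hbc : b.1 < c.1 := hbc
  obtain ⟨u, w, hw⟩ := hS b hb
  have ha' := hw a ha fun h => hab.ne (by rw [h])
  have hc' := hw c hc fun h => hbc.ne' (by rw [h])
  have hw0 : w < 0 := by
    rcases lt_trichotomy w 0 with h | h | h
    · exact h
    · subst h; nlinarith
    · refine absurd ⟨hb, -u / w, fun r hr hne => ?_⟩ hb'
      have := hw r hr hne
      rw [div_mul_eq_mul_div, div_lt_iff₀ h]
      linarith
  rw [slope2_mirror, slope2_mirror, neg_le_neg_iff]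
  have e1 : -u / w < slope2 a b := by
    rw [slope2, lt_div_iff₀ (sub_pos.2 hab), div_mul_eq_mul_div, div_lt_iff_of_neg hw0]
    nlinarith
  have e2 : slope2 b c < -u / w := by
    rw [slope2, div_lt_iff₀ (sub_pos.2 hbc), div_mul_eq_mul_div, lt_div_iff_of_neg hw0]
    nlinarith
  linarith

lemma exposed_mirror {S : Set (ℝ × ℝ)} (hS : Exposed S) : Exposed (mirror '' S) := by
  rintro _ ⟨p, hp, rfl⟩
  obtain ⟨u, w, h⟩ := hS p hp
  refine ⟨u, -w, ?_⟩
  rintro _ ⟨r, hr, rfl⟩ hne
  have := h r hr fun h' => hne (by rw [h'])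
  simp only [mirror]
  linarith

open Classical in
lemma mirror_edge (hP : Generic P) {j : ℕ} {e : (ℝ × ℝ) × (ℝ × ℝ)} (he : e ∈ edges P j) :
    j + 2 ≤ P.card ∧ (mirror e.1, mirror e.2) ∈ edges (P.image mirror) (P.card - 2 - j) := by
  obtain ⟨hp, hq, hlt, hc⟩ := mem_edges.1 he
  have hs : esl (mirror e.1, mirror e.2) = -esl e := slope2_mirror _ _
  set A := above P e.1 (esl e)
  set Bw := P.filter fun r => lift (esl e) r < lift (esl e) e.1
  have hB : above (P.image mirror) (mirror e.1) (-esl e) = Bw.image mirror := by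
    ext r
    simp only [above, Bw, mem_filter, mem_image]
    constructor
    · rintro ⟨⟨r, hr, rfl⟩, h⟩
      rw [lift_mirror, lift_mirror, neg_neg] at h
      exact ⟨r, ⟨hr, by linarith⟩, rfl⟩
    · rintro ⟨r, ⟨hr, h⟩, rfl⟩
      refine ⟨⟨r, hr, rfl⟩, ?_⟩
      rw [lift_mirror, lift_mirror, neg_neg]
      linarith
  have hpq : e.1 ≠ e.2 := fun h => hlt.ne (by rw [h])
  have hon : P.filter (fun r => ¬ (lift (esl e) e.1 < lift (esl e) r) ∧
      ¬ (lift (esl e) r < lift (esl e) e.1)) = {e.1, e.2} := by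
    ext r
    simp only [mem_filter, mem_insert, mem_singleton, not_lt]
    constructor
    · rintro ⟨hr, h1, h2⟩
      by_contra hne
      push Not at hne
      have h := lift_sub_lift (s := esl e) (hP.fst_ne e.1 hp r hr hne.1.symm)
      rw [le_antisymm h1 h2, sub_self] at h
      rcases mul_eq_zero.1 h.symm with h' | h'
      · exact hP.fst_ne e.1 hp r hr hne.1.symm (by linarith)
      · exact hP.slope_ne e.1 hp r hr e.2 hq hne.1.symm hpq hne.2 (by
          show slope2 e.1 r = esl e
          linarith)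
    · rintro (rfl | rfl)
      · exact ⟨hp, le_rfl, le_rfl⟩
      · have := lift_slope2 hlt.ne
        rw [esl]
        exact ⟨hq, this.le, this.ge⟩
  have hcount : A.card + Bw.card + 2 = P.card := by
    have h1 := card_filter_add_card_filter_not (s := P) fun r =>
      lift (esl e) e.1 < lift (esl e) r
    have h2 := card_filter_add_card_filter_not
      (s := P.filter fun r => ¬ lift (esl e) e.1 < lift (esl e) r) fun r =>
      lift (esl e) r < lift (esl e) e.1
    rw [filter_filter, filter_filter, hon, card_pair hpq] at h2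
    have h3 : P.filter (fun r => ¬ lift (esl e) e.1 < lift (esl e) r ∧
        lift (esl e) r < lift (esl e) e.1) = Bw := by
      refine filter_congr fun r _ => ⟨fun h => h.2, fun h => ⟨h.not_gt, h⟩⟩
    rw [h3] at h2
    simp only [A, above] at *
    omega
  refine ⟨by omega, mem_edges.2 ⟨mem_image_of_mem _ hp, mem_image_of_mem _ hq, hlt, ?_⟩⟩
  rw [hs]
  show (above (P.image mirror) (mirror e.1) (-esl e)).card = _
  rw [hB, card_image_of_injective _ mirror_injective]
  omega

open Classical in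
/-- At most `2 m n` edges with exactly `j` points above. -/
theorem card_edges_le (hP : Generic P) {m : ℕ} (C : Fin m → Set (ℝ × ℝ))
    (hcov : ∀ p ∈ P, ∃ i, p ∈ C i) (hC : ∀ i, Exposed (C i)) (j : ℕ) :
    (edges P j).card ≤ 2 * m * P.card := by
  rcases (edges P j).eq_empty_or_nonempty with h | ⟨e₀, he₀⟩
  · simp [h]
  have hj := (mirror_edge hP he₀).1
  set Lo := fun i => (edges P j).filter fun e => e.1 ∈ lowerPart (C i)
  set Hi := fun i => (edges P j).filter fun e => e.1 ∈ C i \ lowerPart (C i)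
  have hsub : edges P j ⊆ (univ.biUnion Lo) ∪ univ.biUnion Hi := by
    intro e he
    obtain ⟨i, hi⟩ := hcov e.1 (mem_edges.1 he).1
    by_cases h : e.1 ∈ lowerPart (C i)
    · exact mem_union_left _ (mem_biUnion.2 ⟨i, mem_univ _, mem_filter.2 ⟨he, h⟩⟩)
    · exact mem_union_right _ (mem_biUnion.2 ⟨i, mem_univ _, mem_filter.2 ⟨he, hi, h⟩⟩)
  have hLo : ∀ i, (Lo i).card ≤ 2 * (j + 1) := fun i => card_edges_cup hP (isCup_lowerPart _)
  have hHi : ∀ i, (Hi i).card ≤ 2 * (P.card - 2 - j + 1) := by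
    intro i
    refine le_trans (card_le_card_of_injOn (fun e => (mirror e.1, mirror e.2)) ?_ ?_)
      (card_edges_cup hP.mirror (j := P.card - 2 - j) (isCup_mirror_upperPart (hC i)))
    · intro e he
      obtain ⟨he, h⟩ := mem_filter.1 he
      exact mem_filter.2 ⟨(mirror_edge hP he).2, ⟨e.1, h, rfl⟩⟩
    · intro a _ b _ h
      simp only [Prod.mk.injEq] at h
      exact Prod.ext (mirror_injective h.1) (mirror_injective h.2)
  calc (edges P j).card ≤ (∑ i, (Lo i).card) + ∑ i, (Hi i).card :=
        (card_le_card hsub).trans ((card_union_le _ _).trans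
          (Nat.add_le_add card_biUnion_le card_biUnion_le))
    _ ≤ (∑ _i : Fin m, 2 * (j + 1)) + ∑ _i : Fin m, 2 * (P.card - 2 - j + 1) :=
        Nat.add_le_add (sum_le_sum fun i _ => hLo i) (sum_le_sum fun i _ => hHi i)
    _ = 2 * m * ((j + 1) + (P.card - 2 - j + 1)) := by simp; ring
    _ = 2 * m * P.card := by congr 1; omega

/-- The sets of `k` points cut off from above by a non-vertical line. -/
def IsTop (P : Finset (ℝ × ℝ)) (k : ℕ) (S : Finset (ℝ × ℝ)) : Prop :=
  S ⊆ P ∧ S.card = k ∧ ∃ s : ℝ, ∀ p ∈ S, ∀ q ∈ P \ S, lift s q < lift s p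

open Classical in
theorem card_top_le (hP : Generic P) {k : ℕ} :
    (P.powerset.filter (IsTop P k)).card ≤ (edges P (k - 1)).card + 1 := by
  rcases k with - | j
  · refine le_trans (card_le_card (t := {∅}) fun S hS => ?_) (by simp)
    simpa using (mem_filter.1 hS).2.2.1
  set T := P.powerset.filter (IsTop P (j + 1))
  let sl : Finset (ℝ × ℝ) → ℝ := fun S => if h : IsTop P (j + 1) S then h.2.2.choose else 0
  let g : Finset (ℝ × ℝ) → ℕ := fun S => ((edges P j).filter fun e => esl e ≤ sl S).card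
  refine (card_le_card_of_injOn g (t := range ((edges P j).card + 1)) ?_ ?_).trans (by simp)
  · intro S _
    exact mem_coe.2 (mem_range.2 (Nat.lt_succ_of_le (card_filter_le _ _)))
  have key : ∀ S ∈ T, ∀ S' ∈ T, sl S ≤ sl S' → g S = g S' → S = S' := by
    intro S hS S' hS' hle hg
    have hT := (mem_filter.1 hS).2
    have hT' := (mem_filter.1 hS').2
    have h1 : ∀ p ∈ S, ∀ q ∈ P \ S, lift (sl S) q < lift (sl S) p := by
      simp only [sl, dif_pos hT]; exact hT.2.2.choose_spec
    have h2 : ∀ p ∈ S', ∀ q ∈ P \ S', lift (sl S') q < lift (sl S') p := by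
      simp only [sl, dif_pos hT']; exact hT'.2.2.choose_spec
    by_contra hne
    obtain ⟨q, hq', hq⟩ : ∃ q ∈ S', q ∉ S := by
      by_contra hh
      push Not at hh
      exact hne (eq_of_subset_of_card_le hh (by rw [hT.2.1, hT'.2.1])).symm
    have hqP := hT'.1 hq'
    have hbig : j < (above P q (sl S)).card := by
      have : S ⊆ above P q (sl S) := fun p hp =>
        mem_filter.2 ⟨hT.1 hp, h1 p hp q (mem_sdiff.2 ⟨hqP, hq⟩)⟩
      have := card_le_card this
      rw [hT.2.1] at this
      omega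
    have hsmall : (above P q (sl S')).card ≤ j := by
      have : above P q (sl S') ⊆ S'.erase q := by
        intro r hr
        obtain ⟨hr, hlt⟩ := mem_filter.1 hr
        refine mem_erase.2 ⟨fun h => by rw [h] at hlt; exact lt_irrefl _ hlt, by_contra fun h => ?_⟩
        exact lt_asymm hlt (h2 q hq' r (mem_sdiff.2 ⟨hr, h⟩))
      have := card_le_card this
      rw [card_erase_of_mem hq', hT'.2.1] at this
      omega
    rcases hle.eq_or_lt with heq | hlt
    · rw [heq] at hbig; omega
    obtain ⟨r, hr, r1, r2, r3, r4⟩ := exists_entry hP hqP hlt (Or.inl hbig) hsmall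
    have hss : (edges P j).filter (fun e => esl e ≤ sl S) ⊂
        (edges P j).filter fun e => esl e ≤ sl S' := by
      refine ⟨fun e he => ?_, fun h => ?_⟩
      · obtain ⟨a, b⟩ := mem_filter.1 he
        exact mem_filter.2 ⟨a, b.trans hle⟩
      · have hm : (q, r) ∈ (edges P j).filter fun e => esl e ≤ sl S' :=
          mem_filter.2 ⟨mem_edges.2 ⟨hqP, hr, r1, r4⟩, r3⟩
        exact absurd (mem_filter.1 (h hm)).2 r2.not_ge
    exact absurd hg (card_lt_card hss).ne
  intro S hS S' hS' h
  rcases le_total (sl S) (sl S') with hle | hle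
  · exact key S hS S' hS' hle h
  · exact (key S' hS' S hS hle h.symm).symm

end Vale.Agent.P065
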