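import Vale.Agent.P065.Crossings

/-!
Dey's concave chains of the edges with exactly `j` points above, and their bound by cups.
-/

open Finset Function

namespace Vale.Agent.P065

variable {P : Finset (ℝ × ℝ)}

/-- The slope of a pair. -/
noncomputable def esl (e : (ℝ × ℝ) × (ℝ × ℝ)) : ℝ := slope2 e.1 e.2

/-- The pairs, listed left to right, with exactly `j` points strictly above their line. -/
noncomputable def edges (P : Finset (ℝ × ℝ)) (j : ℕ) : Finset ((ℝ × ℝ) × (ℝ × ℝ)) :=
  (P ×ˢ P).filter fun e => e.1.1 < e.2.1 ∧ (above P e.1 (esl e)).card = j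

/-- The edges that enter the right end point of `e` before `e`. -/
noncomputable def before (P : Finset (ℝ × ℝ)) (j : ℕ) (e : (ℝ × ℝ) × (ℝ × ℝ)) :
    Finset ((ℝ × ℝ) × (ℝ × ℝ)) :=
  (edges P j).filter fun f => f.1 = e.2 ∧ esl f < esl e

open Classical in
/-- The previous edge of the chain, or the edge itself when it starts a chain. -/
noncomputable def pred (P : Finset (ℝ × ℝ)) (j : ℕ) (e : (ℝ × ℝ) × (ℝ × ℝ)) :
    (ℝ × ℝ) × (ℝ × ℝ) :=
  if h : (before P j e).Nonempty then ((before P j e).exists_max_image esl h).choose else e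

variable {j : ℕ} {e f : (ℝ × ℝ) × (ℝ × ℝ)}

lemma mem_edges :
    e ∈ edges P j ↔
      e.1 ∈ P ∧ e.2 ∈ P ∧ e.1.1 < e.2.1 ∧ (above P e.1 (esl e)).card = j := by
  simp [edges, and_assoc]

lemma card_above_right (he : e ∈ edges P j) : (above P e.2 (esl e)).card = j := by
  obtain ⟨-, -, hlt, hc⟩ := mem_edges.1 he
  rw [← hc]
  refine congrArg Finset.card (filter_congr fun r _ => ?_)
  rw [esl, lift_slope2 hlt.ne]

lemma pred_of_empty (h : ¬ (before P j e).Nonempty) : pred P j e = e := dif_neg h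

lemma pred_spec (h : (before P j e).Nonempty) :
    pred P j e ∈ before P j e ∧ ∀ f ∈ before P j e, esl f ≤ esl (pred P j e) := by
  rw [pred, dif_pos h]
  exact ((before P j e).exists_max_image esl h).choose_spec

lemma before_nonempty_of_ne (h : pred P j e ≠ e) : (before P j e).Nonempty :=
  by_contra fun hc => h (pred_of_empty hc)

lemma pred_mem (he : e ∈ edges P j) : pred P j e ∈ edges P j := by
  by_cases h : (before P j e).Nonempty
  · exact (mem_filter.1 (pred_spec h).1).1
  · rwa [pred_of_empty h]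

lemma iterate_mem (he : e ∈ edges P j) (i : ℕ) : (pred P j)^[i] e ∈ edges P j := by
  induction i with
  | zero => simpa using he
  | succ i ih => rw [iterate_succ_apply']; exact pred_mem ih

/-- Two edges leaving the same point are separated by an edge entering it. -/
lemma exists_between_exits (hP : Generic P) (he : e ∈ edges P j) (hf : f ∈ edges P j)
    (h : e.2 = f.2) (hlt : esl e < esl f) :
    ∃ g ∈ edges P j, g.1 = e.2 ∧ esl e < esl g ∧ esl g < esl f := by
  obtain ⟨he1, he2, hel, -⟩ := mem_edges.1 he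
  obtain ⟨hf1, -, hfl, -⟩ := mem_edges.1 hf
  obtain ⟨r, hr, hr1, hr2, hr3, hr4⟩ :=
    exists_entry hP he2 hlt (Or.inr ⟨(card_above_right he).symm, e.1, he1, hel, slope2_comm _ _⟩)
      (by rw [h, card_above_right hf])
  refine ⟨(e.2, r), mem_edges.2 ⟨he2, hr, hr1, hr4⟩, rfl, hr2, lt_of_le_of_ne hr3 fun heq => ?_⟩
  have hne : e.2 ≠ r := fun h => by simp [h] at hr1
  have hne2 : e.2 ≠ f.1 := fun h' => by rw [← h', ← h] at hfl; exact lt_irrefl _ hfl
  refine hP.slope_ne e.2 he2 r hr f.1 hf1 hne hne2 (fun h' => ?_) ?_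
  · rw [h', h] at hr1; exact hr1.not_gt hfl
  · show slope2 e.2 r = slope2 e.2 f.1
    exact heq.trans (by rw [h]; exact slope2_comm _ _)

/-- The previous-edge map is injective away from the starting edges. -/
lemma pred_inj (hP : Generic P) (he : e ∈ edges P j) (hf : f ∈ edges P j) (hne : pred P j e ≠ e)
    (hnf : pred P j f ≠ f) (h : pred P j e = pred P j f) : e = f := by
  obtain ⟨hse, hse'⟩ := pred_spec (before_nonempty_of_ne hne)
  obtain ⟨hsf, hsf'⟩ := pred_spec (before_nonempty_of_ne hnf)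
  have h1 : (pred P j e).1 = e.2 := (mem_filter.1 hse).2.1
  have h2 : (pred P j f).1 = f.2 := (mem_filter.1 hsf).2.1
  have hq : e.2 = f.2 := by rw [← h1, ← h2, h]
  rcases lt_trichotomy (esl e) (esl f) with hlt | heq | hgt
  · obtain ⟨g, hg, g1, g2, g3⟩ := exists_between_exits hP he hf hq hlt
    have := hsf' g (mem_filter.2 ⟨hg, by rw [g1, hq], g3⟩)
    rw [← h] at this
    linarith [(mem_filter.1 hse).2.2]
  · obtain ⟨he1, he2, hel, -⟩ := mem_edges.1 he
    obtain ⟨hf1, -, hfl, -⟩ := mem_edges.1 hf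
    refine Prod.ext (by_contra fun hne' => ?_) hq
    refine hP.slope_ne e.2 he2 e.1 he1 f.1 hf1 (fun h' => by simp [h'] at hel)
      (fun h' => by rw [← h', ← hq] at hfl; exact lt_irrefl _ hfl) hne' ?_
    calc slope2 e.2 e.1 = esl e := slope2_comm _ _
      _ = esl f := heq
      _ = slope2 e.2 f.1 := by rw [hq]; exact slope2_comm _ _
  · obtain ⟨g, hg, g1, g2, g3⟩ := exists_between_exits hP hf he hq.symm hgt
    have := hse' g (mem_filter.2 ⟨hg, by rw [g1, hq], g3⟩)
    rw [h] at this
    linarith [(mem_filter.1 hsf).2.2]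

lemma comparable_of_iterate_eq_pred (hP : Generic P) {i : ℕ} :
    ∀ {u b}, u ∈ edges P j → b ∈ edges P j → (pred P j)^[i] u = pred P j b →
      ∃ l, (pred P j)^[l] u = b ∨ (pred P j)^[l] b = u := by
  induction i with
  | zero => intro u b _ _ h; exact ⟨1, Or.inr (by simpa using h.symm)⟩
  | succ i ih =>
    intro u b hu hb h
    rw [iterate_succ_apply'] at h
    by_cases h1 : pred P j ((pred P j)^[i] u) = (pred P j)^[i] u
    · exact ih hu hb (h1.symm.trans h)
    by_cases h2 : pred P j b = b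
    · exact ⟨i + 1, Or.inl (by rw [iterate_succ_apply', h, h2])⟩
    · exact ⟨i, Or.inl (pred_inj hP (iterate_mem hu i) hb h1 h2 h)⟩

/-- Edges in the same chain are comparable. -/
lemma comparable_of_iterate_eq (hP : Generic P) {K : ℕ} :
    ∀ {a b}, a ∈ edges P j → b ∈ edges P j → (pred P j)^[K] a = (pred P j)^[K] b →
      ∃ l, (pred P j)^[l] a = b ∨ (pred P j)^[l] b = a := by
  induction K with
  | zero => intro a b _ _ h; exact ⟨0, Or.inl h⟩
  | succ K ih =>
    intro a b ha hb h
    rw [iterate_succ_apply, iterate_succ_apply] at h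
    obtain ⟨i, hi | hi⟩ := ih (pred_mem ha) (pred_mem hb) h
    · exact comparable_of_iterate_eq_pred hP ha hb (i := i + 1) (by rwa [iterate_succ_apply])
    · obtain ⟨l, hl | hl⟩ :=
        comparable_of_iterate_eq_pred hP hb ha (i := i + 1) (by rwa [iterate_succ_apply])
      · exact ⟨l, Or.inr hl⟩
      · exact ⟨l, Or.inl hl⟩

/-- Along a chain the left end points move to the right and the chords are steep. -/
lemma iterate_geom (i : ℕ) :
    ∀ {e}, e ∈ edges P j → (pred P j)^[i] e = e ∨
      (e.1.1 < ((pred P j)^[i] e).1.1 ∧ esl ((pred P j)^[i] e) < slope2 e.1 ((pred P j)^[i] e).1 ∧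
        slope2 e.1 ((pred P j)^[i] e).1 ≤ esl e) := by
  induction i with
  | zero => intro e _; exact Or.inl rfl
  | succ i ih =>
    intro e he
    by_cases h : pred P j e = e
    · left; rw [iterate_succ_apply, h]
      rcases ih he with h' | h'
      · exact h'
      · exfalso
        have : (pred P j)^[i] e = e := iterate_fixed h i
        rw [this] at h'; exact lt_irrefl _ h'.1
    right
    have hs := pred_spec (before_nonempty_of_ne h)
    obtain ⟨-, h1, h2⟩ := mem_filter.1 hs.1
    obtain ⟨-, -, hlt, -⟩ := mem_edges.1 he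
    rw [iterate_succ_apply]
    rcases ih (pred_mem he) with h' | ⟨g1, g2, g3⟩
    · rw [h', h1]; exact ⟨hlt, h2, le_rfl⟩
    set z := (pred P j)^[i] (pred P j e)
    rw [h1] at g1 g2 g3
    have d1 : 0 < e.2.1 - e.1.1 := sub_pos.2 hlt
    have d2 : 0 < z.1.1 - e.2.1 := sub_pos.2 g1
    have eA : e.2.2 - e.1.2 = esl e * (e.2.1 - e.1.1) := by
      rw [esl, slope2, div_mul_cancel₀ _ d1.ne']
    have eB : z.1.2 - e.2.2 = slope2 e.2 z.1 * (z.1.1 - e.2.1) := by
      rw [slope2, div_mul_cancel₀ _ d2.ne']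
    have hlt' : slope2 e.2 z.1 < esl e := g3.trans_lt h2
    refine ⟨hlt.trans g1, ?_, ?_⟩
    · show esl z < (z.1.2 - e.1.2) / (z.1.1 - e.1.1)
      rw [lt_div_iff₀ (by linarith)]
      nlinarith [mul_lt_mul_of_pos_right (g2.trans hlt') d1, mul_lt_mul_of_pos_right g2 d2]
    · show (z.1.2 - e.1.2) / (z.1.1 - e.1.1) ≤ esl e
      rw [div_le_iff₀ (by linarith)]
      nlinarith [mul_lt_mul_of_pos_right hlt' d2]

lemma rank_le (he : e ∈ edges P j) (i : ℕ) (hne : pred P j ((pred P j)^[i] e) ≠ (pred P j)^[i] e) :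
    ((edges P j).filter fun f => esl f < esl ((pred P j)^[i] e)).card + i <
      (edges P j).card := by
  induction i with
  | zero =>
    simp only [iterate_zero_apply, add_zero]
    exact card_lt_card ⟨filter_subset _ _, fun h => lt_irrefl _ (mem_filter.1 (h he)).2⟩
  | succ i ih =>
    rw [iterate_succ_apply'] at hne ⊢
    set z := (pred P j)^[i] e
    by_cases h : pred P j z = z
    · rw [h] at hne; exact absurd h hne
    have hz := (mem_filter.1 (pred_spec (before_nonempty_of_ne h)).1).2.2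
    have hlt : (edges P j).filter (fun f => esl f < esl (pred P j z)) ⊂
        (edges P j).filter fun f => esl f < esl z := by
      refine ⟨fun f hf => ?_, fun hh => ?_⟩
      · obtain ⟨a, b⟩ := mem_filter.1 hf
        exact mem_filter.2 ⟨a, b.trans hz⟩
      · exact lt_irrefl _ (mem_filter.1 (hh (mem_filter.2 ⟨pred_mem (iterate_mem he i), hz⟩))).2
    have := card_lt_card hlt
    have := ih h
    omega

/-- There are at most `j + 1` chains. -/
lemma card_roots_le (hP : Generic P) :
    ((edges P j).image fun e => (pred P j)^[(edges P j).card] e).card ≤ j + 1 := by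
  set K := (edges P j).card
  set R := P.filter fun q => (P.filter fun r => q.1 < r.1).card ≤ j
  have hfix : ∀ e ∈ (edges P j).image (fun e => (pred P j)^[K] e),
      e ∈ edges P j ∧ pred P j e = e := by
    intro e he
    obtain ⟨d, hd, rfl⟩ := mem_image.1 he
    refine ⟨iterate_mem hd K, by_contra fun h => ?_⟩
    have := rank_le hd K h
    omega
  have hR : R.card ≤ j + 1 := by
    rcases R.eq_empty_or_nonempty with h | h
    · simp [h]
    obtain ⟨q, hq, hmin⟩ := R.exists_min_image (fun q => q.1) h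
    obtain ⟨hqP, hqc⟩ := mem_filter.1 hq
    have hsub : R ⊆ insert q (P.filter fun r => q.1 < r.1) := by
      intro r hr
      rw [mem_insert, mem_filter]
      rcases eq_or_ne r q with h' | h'
      · exact Or.inl h'
      · exact Or.inr ⟨(mem_filter.1 hr).1, lt_of_le_of_ne (hmin r hr)
          (Ne.symm (hP.fst_ne r (mem_filter.1 hr).1 q hqP h'))⟩
    have := (card_le_card hsub).trans (card_insert_le _ _)
    omega
  refine le_trans (card_le_card_of_injOn (fun e => e.2) ?_ ?_) hR
  · intro e he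
    obtain ⟨he, hf⟩ := hfix e he
    obtain ⟨he1, he2, hlt, -⟩ := mem_edges.1 he
    refine mem_filter.2 ⟨he2, by_contra fun hc => ?_⟩
    obtain ⟨a, ha, hab⟩ := exists_low_slope hP he2 (esl e)
    obtain ⟨r, hr, r1, r2, r3, r4⟩ :=
      exists_entry hP he2 ha (Or.inl (by rw [hab]; exact not_le.1 hc)) (card_above_right he).le
    have hne : e.2 ≠ r := fun h => by simp [h] at r1
    have hlt' : esl (e.2, r) < esl e := lt_of_le_of_ne r3 fun heq =>
      hP.slope_ne e.2 he2 r hr e.1 he1 hne (fun h' => by simp [h'] at hlt)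
        (fun h' => by rw [h'] at r1; exact r1.not_gt hlt)
        (heq.trans (slope2_comm _ _))
    have hnb : (before P j e).Nonempty :=
      ⟨(e.2, r), mem_filter.2 ⟨mem_edges.2 ⟨he2, hr, r1, r4⟩, rfl, hlt'⟩⟩
    have := (mem_filter.1 (pred_spec hnb).1).2.2
    rw [hf] at this
    exact lt_irrefl _ this
  · intro e he f hf hq
    obtain ⟨he, hef⟩ := hfix e he
    obtain ⟨hf, hff⟩ := hfix f hf
    have hcase : ∀ {e f}, e ∈ edges P j → f ∈ edges P j → pred P j f = f → e.2 = f.2 →
        ¬ esl e < esl f := by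
      intro e f he hf hff hq hlt
      obtain ⟨g, hg, g1, g2, g3⟩ := exists_between_exits hP he hf hq hlt
      have hnb : (before P j f).Nonempty := ⟨g, mem_filter.2 ⟨hg, g1.trans hq, g3⟩⟩
      have := (mem_filter.1 (pred_spec hnb).1).2.2
      rw [hff] at this
      exact lt_irrefl _ this
    have heq : esl e = esl f :=
      le_antisymm (not_lt.1 (hcase hf he hef hq.symm)) (not_lt.1 (hcase he hf hff hq))
    obtain ⟨he1, he2, hel, -⟩ := mem_edges.1 he
    obtain ⟨hf1, -, hfl, -⟩ := mem_edges.1 hf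
    have hq' : e.2 = f.2 := hq
    refine Prod.ext (by_contra fun hne' => ?_) hq'
    refine hP.slope_ne e.2 he2 e.1 he1 f.1 hf1 (fun h' => by simp [h'] at hel)
      (fun h' => by rw [← h', ← hq'] at hfl; exact lt_irrefl _ hfl) hne' ?_
    calc slope2 e.2 e.1 = esl e := slope2_comm _ _
      _ = esl f := heq
      _ = slope2 e.2 f.1 := by rw [hq']; exact slope2_comm _ _

/-- A set all of whose triples turn left. -/
def IsCup (S : Set (ℝ × ℝ)) : Prop :=
  ∀ a ∈ S, ∀ b ∈ S, ∀ c ∈ S, a.1 < b.1 → b.1 < c.1 → slope2 a b ≤ slope2 b c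

/-- At most `2 (j + 1)` edges have their left end point in a given cup. -/
theorem card_edges_cup (hP : Generic P) {S : Set (ℝ × ℝ)} [DecidablePred (· ∈ S)] (hS : IsCup S) :
    ((edges P j).filter fun e => e.1 ∈ S).card ≤ 2 * (j + 1) := by
  set K := (edges P j).card
  set root := fun e => (pred P j)^[K] e
  refine (card_le_mul_card_image (f := root) _ 2 fun z hz => ?_).trans
    (Nat.mul_le_mul le_rfl ?_)
  · by_contra hc
    push Not at hc
    obtain ⟨a, b, c, ha, hb, hc, hab, hac, hbc⟩ := two_lt_card_iff.1 hc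
    simp only [mem_filter] at ha hb hc
    -- order the three edges along their chain
    have ord : ∀ {x y}, x ∈ edges P j → y ∈ edges P j → root x = root y → x ≠ y →
        (x.1.1 < y.1.1 ∧ esl y < slope2 x.1 y.1 ∧ slope2 x.1 y.1 ≤ esl x) ∨
        (y.1.1 < x.1.1 ∧ esl x < slope2 y.1 x.1 ∧ slope2 y.1 x.1 ≤ esl y) := by
      intro x y hx hy h hne
      obtain ⟨l, hl | hl⟩ := comparable_of_iterate_eq hP hx hy h
      · rcases iterate_geom l hx with h' | h'
        · exact absurd (h'.symm.trans hl) hne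
        · left; rwa [hl] at h'
      · rcases iterate_geom l hy with h' | h'
        · exact absurd (hl.symm.trans h') hne
        · right; rwa [hl] at h'
    have no : ∀ {x y w : (ℝ × ℝ) × (ℝ × ℝ)}, x.1 ∈ S → y.1 ∈ S → w.1 ∈ S →
        (x.1.1 < y.1.1 ∧ esl y < slope2 x.1 y.1 ∧ slope2 x.1 y.1 ≤ esl x) →
        (y.1.1 < w.1.1 ∧ esl w < slope2 y.1 w.1 ∧ slope2 y.1 w.1 ≤ esl y) → False := by
      intro x y w hx hy hw hxy hyw
      linarith [hS _ hx _ hy _ hw hxy.1 hyw.1, hxy.2.1, hyw.2.2]
    rcases ord ha.1.1 hb.1.1 (ha.2.trans hb.2.symm) hab with h1 | h1 <;>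
      rcases ord ha.1.1 hc.1.1 (ha.2.trans hc.2.symm) hac with h2 | h2 <;>
      rcases ord hb.1.1 hc.1.1 (hb.2.trans hc.2.symm) hbc with h3 | h3
    all_goals first
      | exact no ha.1.2 hb.1.2 hc.1.2 h1 h3
      | exact no ha.1.2 hc.1.2 hb.1.2 h2 h3
      | exact no hb.1.2 ha.1.2 hc.1.2 h1 h2
      | exact no hb.1.2 hc.1.2 ha.1.2 h3 h2
      | exact no hc.1.2 ha.1.2 hb.1.2 h2 h1
      | exact no hc.1.2 hb.1.2 ha.1.2 h3 h1
  · exact (card_le_card (image_subset_image (filter_subset _ _))).trans (card_roots_le hP)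

end Vale.Agent.P065
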