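import Mathlib

/-!
Crossing slopes at one point of a planar set, and the number of points above a line through it
as a function of the slope.
-/

open Finset

namespace Vale.Agent.P065

/-- The slope of the line through two points. -/
noncomputable def slope2 (p q : ℝ × ℝ) : ℝ := (q.2 - p.2) / (q.1 - p.1)

/-- Height over the line of slope `s` through the origin. -/
def lift (s : ℝ) (p : ℝ × ℝ) : ℝ := p.2 - s * p.1

/-- The points of `P` strictly above the line of slope `s` through `p`. -/
noncomputable def above (P : Finset (ℝ × ℝ)) (p : ℝ × ℝ) (s : ℝ) : Finset (ℝ × ℝ) :=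
  P.filter fun r => lift s p < lift s r

/-- General position together with distinct abscissae. -/
structure Generic (P : Finset (ℝ × ℝ)) : Prop where
  fst_ne : ∀ p ∈ P, ∀ q ∈ P, p ≠ q → p.1 ≠ q.1
  slope_ne : ∀ p ∈ P, ∀ q ∈ P, ∀ r ∈ P, p ≠ q → p ≠ r → q ≠ r → slope2 p q ≠ slope2 p r

variable {P : Finset (ℝ × ℝ)} {p q r : ℝ × ℝ} {s : ℝ}

lemma slope2_comm (p q : ℝ × ℝ) : slope2 p q = slope2 q p := by
  rw [slope2, slope2, ← neg_sub p.2, ← neg_sub p.1, neg_div_neg_eq]

lemma lift_sub_lift (h : p.1 ≠ r.1) :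
    lift s r - lift s p = (r.1 - p.1) * (slope2 p r - s) := by
  have : r.1 - p.1 ≠ 0 := sub_ne_zero.2 (Ne.symm h)
  rw [slope2, lift, lift, mul_sub, mul_div_cancel₀ _ this]
  ring

lemma lt_lift_iff_of_left (h : r.1 < p.1) : lift s p < lift s r ↔ slope2 p r < s := by
  have e := lift_sub_lift (s := s) h.ne'
  constructor <;> intro hh
  · by_contra hc
    push Not at hc
    nlinarith [mul_nonpos_of_nonpos_of_nonneg (show r.1 - p.1 ≤ 0 by linarith)
      (sub_nonneg.2 hc)]
  · nlinarith [mul_pos_of_neg_of_neg (show r.1 - p.1 < 0 by linarith) (sub_neg.2 hh)]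

lemma lt_lift_iff_of_right (h : p.1 < r.1) : lift s p < lift s r ↔ s < slope2 p r := by
  have e := lift_sub_lift (s := s) h.ne
  constructor <;> intro hh
  · by_contra hc
    push Not at hc
    nlinarith [mul_nonpos_of_nonneg_of_nonpos (show 0 ≤ r.1 - p.1 by linarith)
      (sub_nonpos.2 hc)]
  · nlinarith [mul_pos (show 0 < r.1 - p.1 by linarith) (sub_pos.2 hh)]

lemma lift_slope2 (h : p.1 ≠ r.1) : lift (slope2 p r) r = lift (slope2 p r) p := by
  have := lift_sub_lift (s := slope2 p r) h
  rw [sub_self, mul_zero, sub_eq_zero] at this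
  exact this

lemma mem_above (hP : Generic P) (hp : p ∈ P) :
    r ∈ above P p s ↔ r ∈ P ∧ ((r.1 < p.1 ∧ slope2 p r < s) ∨ (p.1 < r.1 ∧ s < slope2 p r)) := by
  simp only [above, mem_filter, and_congr_right_iff]
  intro hr
  rcases eq_or_ne p r with rfl | hne
  · simp
  rcases lt_or_gt_of_ne (hP.fst_ne p hp r hr hne) with h | h
  · rw [lt_lift_iff_of_right h]; simp [h, h.not_gt]
  · rw [lt_lift_iff_of_left h]; simp [h, h.not_gt]

/-- Going from slope `a` up to `b`, if no right neighbour of `p` is crossed and `a` is not a left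
crossing, the set above grows. -/
lemma above_subset (hP : Generic P) (hp : p ∈ P) {a b : ℝ} (hab : a ≤ b)
    (hno : ∀ r ∈ P, p.1 < r.1 → a < slope2 p r → b < slope2 p r) :
    above P p a ⊆ above P p b := by
  intro r hr
  rw [mem_above hP hp] at hr ⊢
  obtain ⟨hr, h | h⟩ := hr
  · exact ⟨hr, Or.inl ⟨h.1, h.2.trans_le hab⟩⟩
  · exact ⟨hr, Or.inr ⟨h.1, hno r hr h.1 h.2⟩⟩

/-- If more than `j` points are above just after slope `a` and at most `j` at slope `b > a`, then
in between a right neighbour of `p` is crossed with exactly `j` points above. -/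
lemma exists_entry (hP : Generic P) (hp : p ∈ P) {a b : ℝ} {j : ℕ} (hab : a < b)
    (ha : j < (above P p a).card ∨
      j = (above P p a).card ∧ ∃ r ∈ P, r.1 < p.1 ∧ slope2 p r = a)
    (hb : (above P p b).card ≤ j) :
    ∃ r ∈ P, p.1 < r.1 ∧ a < slope2 p r ∧ slope2 p r ≤ b ∧
      (above P p (slope2 p r)).card = j := by
  have key : ∀ c, a < c → (∀ r ∈ P, p.1 < r.1 → a < slope2 p r → c < slope2 p r) →
      j < (above P p c).card := by
    intro c hc hno
    have hsub := above_subset hP hp hc.le hno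
    rcases ha with ha | ⟨ha, r, hr, hrl, hrs⟩
    · exact ha.trans_le (card_le_card hsub)
    · have hnot : r ∉ above P p a := by
        rw [mem_above hP hp]
        rintro ⟨-, h | h⟩
        · exact absurd h.2 hrs.not_lt
        · exact absurd h.1 hrl.not_gt
      have hin : insert r (above P p a) ⊆ above P p c :=
        insert_subset ((mem_above hP hp).2 ⟨hr, Or.inl ⟨hrl, hrs.trans_lt hc⟩⟩) hsub
      have := card_le_card hin
      rw [card_insert_of_notMem hnot, ← ha] at this
      omega
  set W := P.filter fun r => p.1 < r.1 ∧ a < slope2 p r ∧ slope2 p r ≤ b ∧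
    (above P p (slope2 p r)).card ≤ j with hW
  have hne : W.Nonempty := by
    by_contra hW0
    rw [not_nonempty_iff_eq_empty, filter_eq_empty_iff] at hW0
    by_cases hex : ∃ r ∈ P, p.1 < r.1 ∧ a < slope2 p r ∧ slope2 p r ≤ b
    · obtain ⟨r, hr, hmax⟩ := (P.filter fun r => p.1 < r.1 ∧ a < slope2 p r ∧ slope2 p r ≤ b)
        |>.exists_max_image (fun r => slope2 p r)
        (by obtain ⟨r, hr, h⟩ := hex; exact ⟨r, mem_filter.2 ⟨hr, h⟩⟩)
      obtain ⟨hr, h1, h2, h3⟩ := mem_filter.1 hr
      have hsub : above P p (slope2 p r) ⊆ above P p b := by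
        refine above_subset hP hp h3 fun t ht ht1 ht2 => ?_
        by_contra hc
        push Not at hc
        exact absurd (hmax t (mem_filter.2 ⟨ht, ht1, h2.trans ht2, hc⟩)) ht2.not_ge
      exact hW0 hr ⟨h1, h2, h3, (card_le_card hsub).trans hb⟩
    · push Not at hex
      exact absurd hb (key b hab fun r hr h1 h2 => hex r hr h1 h2).not_ge
  obtain ⟨r, hr, hmin⟩ := W.exists_min_image (fun r => slope2 p r) hne
  obtain ⟨hr, h1, h2, h3, h4⟩ := mem_filter.1 hr
  refine ⟨r, hr, h1, h2, h3, le_antisymm h4 ?_⟩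
  set c := slope2 p r with hc
  have hpr : p ≠ r := fun h => by simp [h] at h1
  by_cases hex : ∃ t ∈ P, p.1 < t.1 ∧ a < slope2 p t ∧ slope2 p t < c
  · obtain ⟨t, ht, hmax⟩ := (P.filter fun t => p.1 < t.1 ∧ a < slope2 p t ∧ slope2 p t < c)
      |>.exists_max_image (fun t => slope2 p t)
      (by obtain ⟨t, ht, h⟩ := hex; exact ⟨t, mem_filter.2 ⟨ht, h⟩⟩)
    obtain ⟨ht, t1, t2, t3⟩ := mem_filter.1 ht
    have hj : j < (above P p (slope2 p t)).card := by
      by_contra hcc
      push Not at hcc
      exact absurd (hmin t (mem_filter.2 ⟨ht, t1, t2, t3.le.trans h3, hcc⟩)) t3.not_ge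
    have hsub : above P p (slope2 p t) ⊆ insert r (above P p c) := by
      intro u hu
      rw [mem_above hP hp] at hu
      rw [mem_insert, mem_above hP hp]
      obtain ⟨huP, hu | hu⟩ := hu
      · exact Or.inr ⟨huP, Or.inl ⟨hu.1, hu.2.trans t3⟩⟩
      · rcases lt_trichotomy (slope2 p u) c with hlt | heq | hgt
        · exact absurd (hmax u (mem_filter.2 ⟨huP, hu.1, t2.trans hu.2, hlt⟩)) hu.2.not_ge
        · left
          by_contra hne'
          exact hP.slope_ne p hp u huP r hr (fun h => by simp [h] at hu) hpr hne' heq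
        · exact Or.inr ⟨huP, Or.inr ⟨hu.1, hgt⟩⟩
    have := (card_le_card hsub).trans (card_insert_le _ _)
    omega
  · push Not at hex
    by_contra hcc
    push Not at hcc
    obtain ⟨b', hb1, hb2⟩ := exists_between h2
    have := key b' hb1 fun t ht t1 t2 => hb2.trans_le (hex t ht t1 t2)
    have hsub : above P p b' ⊆ insert r (above P p c) := by
      intro u hu
      rw [mem_above hP hp] at hu
      rw [mem_insert, mem_above hP hp]
      obtain ⟨huP, hu | hu⟩ := hu
      · exact Or.inr ⟨huP, Or.inl ⟨hu.1, hu.2.trans hb2⟩⟩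
      · rcases (hex u huP hu.1 (hb1.trans hu.2)).eq_or_lt with heq | hgt
        · left
          by_contra hne'
          exact hP.slope_ne p hp u huP r hr (fun h => by simp [h] at hu) hpr hne' heq.symm
        · exact Or.inr ⟨huP, Or.inr ⟨hu.1, hgt⟩⟩
    have := (card_le_card hsub).trans (card_insert_le _ _)
    omega

/-- Below every slope exactly the points to the right are above. -/
lemma exists_low_slope (hP : Generic P) (hp : p ∈ P) (b : ℝ) :
    ∃ a < b, above P p a = P.filter fun r => p.1 < r.1 := by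
  obtain ⟨l, hl⟩ := (insert b (P.image (slope2 p))).bddBelow
  refine ⟨l - 1, by have := hl (mem_coe.2 (mem_insert_self b _)); linarith, ?_⟩
  ext r
  rw [mem_above hP hp, mem_filter]
  constructor
  · rintro ⟨hr, h | h⟩
    · have := hl (mem_coe.2 (mem_insert_of_mem (mem_image_of_mem (slope2 p) hr)))
      linarith [h.2]
    · exact ⟨hr, h.1⟩
  · rintro ⟨hr, h⟩
    have := hl (mem_coe.2 (mem_insert_of_mem (mem_image_of_mem (slope2 p) hr)))
    exact ⟨hr, Or.inr ⟨h, by linarith⟩⟩

end Vale.Agent.P065
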