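import Vale.Agent.P065.Bound

/-!
Reduction to distinct abscissae by a shear, and the final bounds.
-/

open Finset Filter Topology

namespace Vale.Agent.P065

/-- Twice the signed area of the triangle `p q r`. -/
def orient (p q r : ℝ × ℝ) : ℝ := (q.1 - p.1) * (r.2 - p.2) - (q.2 - p.2) * (r.1 - p.1)

/-- The shear `(x, y) ↦ (x + t y, y)`. -/
def shear (t : ℝ) (p : ℝ × ℝ) : ℝ × ℝ := (p.1 + t * p.2, p.2)

lemma shear_injective (t : ℝ) : Function.Injective (shear t) := fun p q h => by
  simp only [shear, Prod.ext_iff] at h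
  have h1 := h.1
  rw [h.2] at h1
  exact Prod.ext (by linarith) h.2

lemma orient_shear (t : ℝ) (p q r : ℝ × ℝ) :
    orient (shear t p) (shear t q) (shear t r) = orient p q r := by
  simp [orient, shear]; ring

lemma exposed_shear (t : ℝ) {S : Set (ℝ × ℝ)} (hS : Exposed S) : Exposed (shear t '' S) := by
  rintro _ ⟨p, hp, rfl⟩
  obtain ⟨u, w, h⟩ := hS p hp
  refine ⟨u, w - u * t, ?_⟩
  rintro _ ⟨r, hr, rfl⟩ hne
  have := h r hr fun h' => hne (by rw [h'])
  simp only [shear]
  nlinarith

lemma exposed_of_convexIndependent {S : Set (ℝ × ℝ)} (hfin : S.Finite)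
    (h : ConvexIndependent ℝ ((↑) : S → ℝ × ℝ)) : Exposed S := by
  intro p hp
  have hnot := convexIndependent_set_iff_notMem_convexHull_sdiff.1 h p hp
  obtain ⟨f, u, hfp, hfS⟩ := geometric_hahn_banach_point_closed (convex_convexHull ℝ (S \ {p}))
    ((hfin.subset Set.sdiff_subset).isClosed_convexHull (𝕜 := ℝ)) hnot
  refine ⟨f (1, 0), f (0, 1), fun r hr hne => ?_⟩
  have hr' := hfS r (subset_convexHull ℝ _ ⟨hr, hne⟩)
  have hf : ∀ v : ℝ × ℝ, f v = f (1, 0) * v.1 + f (0, 1) * v.2 := fun v => by
    conv_lhs => rw [show v = v.1 • ((1 : ℝ), (0 : ℝ)) + v.2 • ((0 : ℝ), (1 : ℝ)) by ext <;> simp]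
    rw [map_add, map_smul, map_smul, smul_eq_mul, smul_eq_mul]; ring
  rw [hf] at hfp hr'
  nlinarith

lemma exists_generic (P : Finset (ℝ × ℝ))
    (hgp : ∀ p ∈ P, ∀ q ∈ P, ∀ r ∈ P, p ≠ q → p ≠ r → q ≠ r → orient p q r ≠ 0) :
    ∃ t : ℝ, Generic (P.image (shear t)) := by
  obtain ⟨t, ht⟩ := Infinite.exists_notMem_finset
    ((P ×ˢ P).image fun e => -(e.2.1 - e.1.1) / (e.2.2 - e.1.2))
  have hne : ∀ p ∈ P, ∀ q ∈ P, p ≠ q → (shear t p).1 ≠ (shear t q).1 := by
    intro p hp q hq hpq h
    simp only [shear] at h
    by_cases hy : q.2 - p.2 = 0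
    · refine hpq (Prod.ext ?_ (by linarith))
      rw [show p.2 = q.2 by linarith] at h; linarith
    · exact ht (mem_image.2 ⟨(p, q), mem_product.2 ⟨hp, hq⟩, by
        rw [div_eq_iff hy]; linarith⟩)
  refine ⟨t, ⟨?_, ?_⟩⟩
  · simp only [mem_image, forall_exists_index, and_imp]
    rintro _ p hp rfl _ q hq rfl h
    exact hne p hp q hq fun h' => h (by rw [h'])
  · simp only [mem_image, forall_exists_index, and_imp]
    rintro _ p hp rfl _ q hq rfl _ r hr rfl h1 h2 h3 heq
    have n1 : p ≠ q := fun h => h1 (by rw [h])
    have n2 : p ≠ r := fun h => h2 (by rw [h])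
    refine hgp p hp q hq r hr n1 n2 (fun h => h3 (by rw [h])) ?_
    rw [← orient_shear t]
    rw [slope2, slope2, div_eq_div_iff (sub_ne_zero.2 (hne p hp q hq n1).symm)
      (sub_ne_zero.2 (hne p hp r hr n2).symm)] at heq
    simp only [orient]
    linarith

/-- A line may be tilted off the vertical without meeting a point. -/
lemma exists_tilt (P S : Finset (ℝ × ℝ)) (a b c : ℝ) (hsep : ∀ p ∈ S, c < a * p.1 + b * p.2)
    (hout : ∀ q ∈ P, q ∉ S → a * q.1 + b * q.2 < c) :
    ∃ b' : ℝ, b' ≠ 0 ∧ (∀ p ∈ S, c < a * p.1 + b' * p.2) ∧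
      ∀ q ∈ P, q ∉ S → a * q.1 + b' * q.2 < c := by
  have h1 : ∀ᶠ x in 𝓝[≠] b, ∀ p ∈ S, c < a * p.1 + x * p.2 :=
    (eventually_all_finset S).2 fun p hp => nhdsWithin_le_nhds
      ((show Continuous fun x : ℝ => a * p.1 + x * p.2 by fun_prop).tendsto b
        |>.eventually (lt_mem_nhds (hsep p hp)))
  have h2 : ∀ᶠ x in 𝓝[≠] b, ∀ q ∈ P, q ∉ S → a * q.1 + x * q.2 < c :=
    (eventually_all_finset P).2 fun q hq => by
      by_cases h : q ∈ S
      · exact Eventually.of_forall fun _ h' => absurd h h'
      · have hev : ∀ᶠ x in 𝓝 b, a * q.1 + x * q.2 < c :=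
          (show Continuous fun x : ℝ => a * q.1 + x * q.2 by fun_prop).tendsto b
            |>.eventually (gt_mem_nhds (hout q hq h))
        exact (hev.filter_mono nhdsWithin_le_nhds).mono fun _ h' _ => h'
  by_cases hb : b = 0
  · obtain ⟨x, hx, hx1, hx2⟩ := ((eventually_mem_nhdsWithin (a := b) (s := {b}ᶜ)).and
      (h1.and h2)).exists
    exact ⟨x, fun h => hx (by simp [h, hb]), hx1, hx2⟩
  · exact ⟨b, hb, hsep, hout⟩

open Classical in
/-- At most `4 m n` ordered halving pairs, and at most `4 m n + 2` `k`-sets. -/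
theorem bounds (P : Finset (ℝ × ℝ))
    (hgp : ∀ p ∈ P, ∀ q ∈ P, ∀ r ∈ P, p ≠ q → p ≠ r → q ≠ r → orient p q r ≠ 0)
    (m : ℕ) (C : Fin m → Set (ℝ × ℝ)) (hcov : ∀ p ∈ P, ∃ i, p ∈ C i) (hC : ∀ i, Exposed (C i)) :
    ((P ×ˢ P).filter fun e => e.1 ≠ e.2 ∧
        (P.filter fun r => 0 < orient e.1 e.2 r).card =
          (P.filter fun r => orient e.1 e.2 r < 0).card).card ≤ 4 * m * P.card ∧
    ∀ k, (P.powerset.filter fun S => S.card = k ∧ ∃ a b c : ℝ,
        (∀ p ∈ S, c < a * p.1 + b * p.2) ∧ ∀ q ∈ P, q ∉ S → a * q.1 + b * q.2 < c).card ≤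
      4 * m * P.card + 2 := by
  obtain ⟨t, hG⟩ := exists_generic P hgp
  set Q := P.image (shear t) with hQ
  set D := fun i => shear t '' C i
  have hcQ : Q.card = P.card := card_image_of_injective _ (shear_injective t)
  have hcovQ : ∀ p ∈ Q, ∃ i, p ∈ D i := by
    simp only [hQ, mem_image, forall_exists_index, and_imp]
    rintro _ p hp rfl
    obtain ⟨i, hi⟩ := hcov p hp
    exact ⟨i, p, hi, rfl⟩
  have hD : ∀ i, Exposed (D i) := fun i => exposed_shear t (hC i)
  have hE : ∀ j, (edges Q j).card ≤ 2 * m * P.card := fun j =>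
    hcQ ▸ card_edges_le hG D hcovQ hD j
  have hE' : ∀ j, (edges (Q.image mirror) j).card ≤ 2 * m * P.card := by
    intro j
    have := card_edges_le hG.mirror (fun i => mirror '' D i) ?_ (fun i => exposed_mirror (hD i)) j
    · rwa [card_image_of_injective _ mirror_injective, hcQ] at this
    · simp only [mem_image, forall_exists_index, and_imp]
      rintro _ p hp rfl
      obtain ⟨i, hi⟩ := hcovQ p hp
      exact ⟨i, p, hi, rfl⟩
  have h4 : 4 * m * P.card = 2 * (2 * m * P.card) := by ring
  refine ⟨?_, fun k => ?_⟩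
  · set H := (P ×ˢ P).filter fun e => e.1 ≠ e.2 ∧
      (P.filter fun r => 0 < orient e.1 e.2 r).card =
        (P.filter fun r => orient e.1 e.2 r < 0).card
    have key : ∀ e ∈ H, (shear t e.1).1 < (shear t e.2).1 →
        (shear t e.1, shear t e.2) ∈ edges Q ((P.card - 2) / 2) := by
      intro e he hlt
      obtain ⟨hmem, hne, heq⟩ := mem_filter.1 he
      obtain ⟨hp, hq⟩ := mem_product.1 hmem
      set e' := (shear t e.1, shear t e.2)
      have hj : ∀ s : ℝ × ℝ, lift (esl e') (shear t e.1) < lift (esl e') (shear t s) ↔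
          0 < orient e.1 e.2 s := by
        intro s
        rw [← orient_shear t]
        set p := shear t e.1
        set q := shear t e.2
        set r := shear t s
        have hd : 0 < q.1 - p.1 := sub_pos.2 hlt
        have : orient p q r = (q.1 - p.1) * (lift (esl e') r - lift (esl e') p) := by
          show orient p q r = (q.1 - p.1) * (lift (slope2 p q) r - lift (slope2 p q) p)
          simp only [orient, lift, slope2]
          field_simp
          ring
        rw [this, mul_pos_iff_of_pos_left hd, sub_pos]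
      have hab : (above Q (shear t e.1) (esl e')).card =
          (P.filter fun r => 0 < orient e.1 e.2 r).card := by
        rw [above, hQ, filter_image, card_image_of_injective _ (shear_injective t)]
        exact congrArg Finset.card (filter_congr fun r _ => hj r)
      have hsum : (P.filter fun r => 0 < orient e.1 e.2 r).card +
          (P.filter fun r => orient e.1 e.2 r < 0).card + 2 = P.card := by
        have h1 := card_filter_add_card_filter_not (s := P) fun r => 0 < orient e.1 e.2 r
        have h2 := card_filter_add_card_filter_not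
          (s := P.filter fun r => ¬ 0 < orient e.1 e.2 r) fun r => orient e.1 e.2 r < 0
        rw [filter_filter, filter_filter] at h2
        have h3 : P.filter (fun r => ¬ 0 < orient e.1 e.2 r ∧ orient e.1 e.2 r < 0) =
            P.filter fun r => orient e.1 e.2 r < 0 :=
          filter_congr fun r _ => ⟨fun h => h.2, fun h => ⟨h.not_gt, h⟩⟩
        have h4 : P.filter (fun r => ¬ 0 < orient e.1 e.2 r ∧ ¬ orient e.1 e.2 r < 0) =
            {e.1, e.2} := by
          ext r
          simp only [mem_filter, mem_insert, mem_singleton, not_lt]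
          constructor
          · rintro ⟨hr, a, b⟩
            by_contra hne'
            push Not at hne'
            exact hgp e.1 hp e.2 hq r hr hne hne'.1.symm hne'.2.symm (le_antisymm a b)
          · rintro (rfl | rfl)
            · exact ⟨hp, by simp [orient], by simp [orient]⟩
            · exact ⟨hq, by simp [orient, mul_comm], by simp [orient, mul_comm]⟩
        rw [h3, h4, card_pair hne] at h2
        omega
      exact mem_edges.2 ⟨mem_image_of_mem _ hp, mem_image_of_mem _ hq, hlt, by
        show (above Q (shear t e.1) (esl e')).card = _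
        rw [hab]; omega⟩
    have hswap : ∀ e ∈ H, e.swap ∈ H := by
      intro e he
      obtain ⟨hmem, hne, heq⟩ := mem_filter.1 he
      obtain ⟨hp, hq⟩ := mem_product.1 hmem
      have : ∀ r, orient e.2 e.1 r = -orient e.1 e.2 r := fun r => by simp [orient]; ring
      refine mem_filter.2 ⟨mem_product.2 ⟨hq, hp⟩, hne.symm, ?_⟩
      simpa [this] using heq.symm
    have h1 : (H.filter fun e => (shear t e.1).1 < (shear t e.2).1).card ≤ 2 * m * P.card := by
      refine le_trans (card_le_card_of_injOn (fun e => (shear t e.1, shear t e.2)) ?_ ?_)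
        (hE ((P.card - 2) / 2))
      · intro e he
        obtain ⟨he, hlt⟩ := mem_filter.1 he
        exact key e he hlt
      · intro a _ b _ h
        simp only [Prod.mk.injEq] at h
        exact Prod.ext (shear_injective t h.1) (shear_injective t h.2)
    have h2 : (H.filter fun e => ¬ (shear t e.1).1 < (shear t e.2).1).card ≤
        (H.filter fun e => (shear t e.1).1 < (shear t e.2).1).card := by
      refine card_le_card_of_injOn Prod.swap ?_ (fun a _ b _ h => Prod.swap_injective h)
      intro e he
      obtain ⟨he, hle⟩ := mem_filter.1 he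
      obtain ⟨hmem, hne, -⟩ := mem_filter.1 he
      obtain ⟨hp, hq⟩ := mem_product.1 hmem
      refine mem_filter.2 ⟨hswap e he, lt_of_le_of_ne (not_lt.1 hle) (fun h => ?_)⟩
      exact hG.fst_ne _ (mem_image_of_mem _ hq) _ (mem_image_of_mem _ hp)
        (fun h' => hne (shear_injective t h').symm) h
    have := card_filter_add_card_filter_not (s := H) fun e => (shear t e.1).1 < (shear t e.2).1
    omega
  · set F := P.powerset.filter fun S => S.card = k ∧ ∃ a b c : ℝ,
      (∀ p ∈ S, c < a * p.1 + b * p.2) ∧ ∀ q ∈ P, q ∉ S → a * q.1 + b * q.2 < c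
    set T₁ := Q.powerset.filter (IsTop Q k)
    set T₂ := (Q.image mirror).powerset.filter (IsTop (Q.image mirror) k)
    have hsub : F ⊆ (T₁.image fun S => P.filter fun p => shear t p ∈ S) ∪
        (T₂.image fun S => P.filter fun p => mirror (shear t p) ∈ S) := by
      intro S hS
      obtain ⟨hSP, hk, a, b, c, hin, hout⟩ := mem_filter.1 hS
      rw [mem_powerset] at hSP
      obtain ⟨b', hb', hin', hout'⟩ := exists_tilt Q (S.image (shear t)) a (b - a * t) c
        (by
          simp only [mem_image, forall_exists_index, and_imp]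
          rintro _ p hp rfl
          have := hin p hp
          simp only [shear]; nlinarith)
        (by
          simp only [hQ, mem_image, forall_exists_index, and_imp]
          rintro _ p hp rfl hn
          have := hout p hp fun h => hn ⟨p, h, rfl⟩
          simp only [shear]; nlinarith)
      have hSQ : S.image (shear t) ⊆ Q := image_subset_image hSP
      have hcard : (S.image (shear t)).card = k := by
        rw [card_image_of_injective _ (shear_injective t), hk]
      rw [mem_union]
      rcases lt_or_gt_of_ne hb' with hneg | hpos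
      · refine Or.inr (mem_image.2 ⟨(S.image (shear t)).image mirror, mem_filter.2
          ⟨mem_powerset.2 (image_subset_image hSQ), image_subset_image hSQ,
            by rw [card_image_of_injective _ mirror_injective, hcard], a / b', ?_⟩, ?_⟩)
        · intro p hp q hq
          obtain ⟨p, hp', rfl⟩ := mem_image.1 hp
          obtain ⟨hq, hqn⟩ := mem_sdiff.1 hq
          obtain ⟨q, hq', rfl⟩ := mem_image.1 hq
          have i1 := hin' p hp'
          have i2 := hout' q hq' fun h => hqn (mem_image_of_mem _ h)
          rw [lift_mirror, lift_mirror, neg_lt_neg_iff]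
          simp only [lift]
          refine lt_of_mul_lt_mul_left ?_ (neg_pos.2 hneg).le
          have e : ∀ r : ℝ × ℝ, -b' * (r.2 - -(a / b') * r.1) = -(b' * r.2 + a * r.1) :=
            fun r => by field_simp; ring
          rw [e, e]
          linarith
        · ext p
          simp only [mem_filter, mem_image]
          constructor
          · rintro ⟨-, y, ⟨x, hx, rfl⟩, hxy⟩
            rwa [← shear_injective t (mirror_injective hxy)]
          · exact fun hp => ⟨hSP hp, _, ⟨p, hp, rfl⟩, rfl⟩
      · refine Or.inl (mem_image.2 ⟨S.image (shear t), mem_filter.2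
          ⟨mem_powerset.2 hSQ, hSQ, hcard, -(a / b'), ?_⟩, ?_⟩)
        · intro p hp q hq
          obtain ⟨hq, hqn⟩ := mem_sdiff.1 hq
          have i1 := hin' p hp
          have i2 := hout' q hq hqn
          simp only [lift]
          refine lt_of_mul_lt_mul_left ?_ hpos.le
          have e : ∀ r : ℝ × ℝ, b' * (r.2 - -(a / b') * r.1) = b' * r.2 + a * r.1 :=
            fun r => by field_simp; ring
          rw [e, e]
          linarith
        · ext p
          simp only [mem_filter, mem_image]
          constructor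
          · rintro ⟨-, x, hx, hxy⟩
            rwa [← shear_injective t hxy]
          · exact fun hp => ⟨hSP hp, p, hp, rfl⟩
    refine (card_le_card hsub).trans ((card_union_le _ _).trans ?_)
    have c1 := (card_image_le (s := T₁) (f := fun S => P.filter fun p => shear t p ∈ S)).trans
      ((card_top_le hG).trans (Nat.add_le_add_right (hE _) 1))
    have c2 := (card_image_le (s := T₂)
      (f := fun S => P.filter fun p => mirror (shear t p) ∈ S)).trans
      ((card_top_le hG.mirror).trans (Nat.add_le_add_right (hE' _) 1))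
    omega

end Vale.Agent.P065
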